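import Vale.Agent.H6.Sat.Split

/-! The dyadic induction is in `Vale.Agent.H9.Sat.Limit`. -/
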